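import Mathlib

/-!
# Checked nonnegativity of nested integer polynomials on boxes

A polynomial in several variables is a nested list of integers, outer variable first. One variable
is moved to `[0, ∞)` by a fractional linear substitution; nonnegative coefficients then prove
nonnegativity on the corresponding interval.
-/

namespace Vale.Agent.P219.Aff.Nine

/-- Coefficients that are evaluated at a list of reals. -/
class Coef (α : Type) where
  zero : α
  add : α → α → α
  smul : ℤ → α → α
  val : α → List ℝ → ℝ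
  val_zero : ∀ e, val zero e = 0
  val_add : ∀ a b e, val (add a b) e = val a e + val b e
  val_smul : ∀ k a e, val (smul k a) e = (k : ℝ) * val a e
  cont : ∀ a e, Continuous fun x : ℝ => val a (x :: e)

open Coef

noncomputable section

instance : Coef ℤ where
  zero := 0
  add a b := a + b
  smul k a := k * a
  val a _ := (a : ℝ)
  val_zero _ := by simp
  val_add a b _ := by simp
  val_smul k a _ := by simp
  cont a _ := continuous_const

variable {α : Type} [Coef α]

/-- The value of a list at `x`, the coefficients at the remaining variables. -/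
def ev : List α → ℝ → List ℝ → ℝ
  | [], _, _ => 0
  | a :: l, x, e => val a e + x * ev l x e

/-- Coefficientwise sum. -/
def addL : List α → List α → List α
  | [], l => l
  | a :: k, [] => a :: k
  | a :: k, b :: l => add a b :: addL k l

theorem ev_addL : ∀ (k l : List α) (x : ℝ) (e : List ℝ), ev (addL k l) x e = ev k x e + ev l x e
  | [], l, x, e => by simp [addL, ev]
  | a :: k, [], x, e => by simp [addL, ev]
  | a :: k, b :: l, x, e => by
    simp only [addL, ev, val_add, ev_addL k l x e]
    ring

theorem ev_smulL (c : ℤ) : ∀ (l : List α) (x : ℝ) (e : List ℝ),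
    ev (l.map (smul c)) x e = (c : ℝ) * ev l x e
  | [], x, e => by simp [ev]
  | a :: l, x, e => by
    simp only [List.map_cons, ev, val_smul, ev_smulL c l x e]
    ring

theorem ev_cont (e : List ℝ) : ∀ l : List α, Continuous fun x => ev l x e
  | [] => continuous_const
  | a :: l => by
    simp only [ev]
    exact continuous_const.add (continuous_id.mul (ev_cont e l))

instance : Coef (List α) where
  zero := []
  add := addL
  smul c := List.map (smul c)
  val l e := ev l (e.headD 0) e.tail
  val_zero e := rfl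
  val_add a b e := ev_addL a b _ _
  val_smul c a e := ev_smulL c a _ _
  cont a e := ev_cont e a

theorem val_list (l : List α) (x : ℝ) (e : List ℝ) : val l (x :: e) = ev l x e := rfl

end

variable {α : Type} [Coef α]

/-- The coefficientwise product with an integer, cheap for `1`. -/
def mapSmul (c : ℤ) (l : List α) : List α := if c = 1 then l else l.map (Coef.smul c)

theorem ev_mapSmul (c : ℤ) (l : List α) (x : ℝ) (e : List ℝ) :
    ev (mapSmul c l) x e = (c : ℝ) * ev l x e := by
  unfold mapSmul
  split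
  · next h => simp [h]
  · exact ev_smulL c l x e

/-- The product with `p + q x`. -/
def mulLin (p q : ℤ) (l : List α) : List α :=
  if p = 0 then Coef.zero :: mapSmul q l else addL (mapSmul p l) (Coef.zero :: mapSmul q l)

theorem ev_mulLin (p q : ℤ) (l : List α) (x : ℝ) (e : List ℝ) :
    ev (mulLin p q l) x e = ((p : ℝ) + q * x) * ev l x e := by
  unfold mulLin
  split
  · next h =>
    simp only [ev, ev_mapSmul, Coef.val_zero, h, Int.cast_zero]
    ring
  · simp only [ev_addL, ev, ev_mapSmul, Coef.val_zero]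
    ring

/-- The product with `(p + q x) ^ k`. -/
def mulPow (p q : ℤ) : ℕ → List α → List α
  | 0, l => l
  | k + 1, l => mulLin p q (mulPow p q k l)

theorem ev_mulPow (p q : ℤ) : ∀ (k : ℕ) (l : List α) (x : ℝ) (e : List ℝ),
    ev (mulPow p q k l) x e = ((p : ℝ) + q * x) ^ k * ev l x e
  | 0, l, x, e => by simp [mulPow]
  | k + 1, l, x, e => by
    rw [mulPow, ev_mulLin, ev_mulPow p q k l x e]
    ring

theorem ev_map_smul (a : α) (x : ℝ) (e : List ℝ) : ∀ w : List ℤ,
    ev (w.map fun c => Coef.smul c a) x e = ev w x e * Coef.val a e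
  | [] => by simp [ev]
  | c :: w => by
    simp only [List.map_cons, ev, Coef.val_smul, ev_map_smul a x e w]
    simp only [Coef.val]
    ring

/-- An interval: `[num / den, top]`, or a ray if `top` is infinite. -/
structure Iv where
  n0 : ℤ
  n1 : ℤ
  d0 : ℤ
  d1 : ℤ

/-- The coefficients after `x ↦ (n0 + n1 x) / (d0 + d1 x)`, times a power of the denominator. -/
def homL (i : Iv) : List α → List α
  | [] => []
  | a :: l => addL ((mulPow i.d0 i.d1 l.length [(1 : ℤ)]).map fun c => Coef.smul c a)
      (mulLin i.n0 i.n1 (homL i l))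

theorem ev_homL (i : Iv) (x : ℝ) (e : List ℝ) (hd : (i.d0 : ℝ) + i.d1 * x ≠ 0) :
    ∀ l : List α, ev (homL i l) x e * ((i.d0 : ℝ) + i.d1 * x) =
      ((i.d0 : ℝ) + i.d1 * x) ^ l.length *
        ev l (((i.n0 : ℝ) + i.n1 * x) / ((i.d0 : ℝ) + i.d1 * x)) e
  | [] => by simp [homL, ev]
  | a :: l => by
    have h : ev (homL i l) x e = ((i.d0 : ℝ) + i.d1 * x) ^ l.length *
        ev l (((i.n0 : ℝ) + i.n1 * x) / ((i.d0 : ℝ) + i.d1 * x)) e / ((i.d0 : ℝ) + i.d1 * x) := by
      rw [eq_div_iff hd, ev_homL i x e hd l]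
    simp only [homL, ev_addL, ev_map_smul, ev_mulPow, ev_mulLin, ev, List.length_cons, pow_succ, h]
    simp only [Coef.val, Int.cast_one]
    field_simp
    ring

theorem ev_nonneg {e : List ℝ} : ∀ (l : List α), (∀ a ∈ l, 0 ≤ Coef.val a e) →
    ∀ x : ℝ, 0 ≤ x → 0 ≤ ev l x e
  | [], _, _, _ => by simp [ev]
  | a :: l, h, x, hx => by
    simp only [ev]
    exact add_nonneg (h a List.mem_cons_self)
      (mul_nonneg hx (ev_nonneg l (fun b hb => h b (List.mem_cons_of_mem _ hb)) x hx))

theorem hom_nonneg (i : Iv) (l : List α) {x : ℝ} {e : List ℝ}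
    (hd : 0 < (i.d0 : ℝ) + i.d1 * x) (h : 0 ≤ ev (homL i l) x e) :
    0 ≤ ev l (((i.n0 : ℝ) + i.n1 * x) / ((i.d0 : ℝ) + i.d1 * x)) e := by
  have := ev_homL i x e hd.ne' l
  exact nonneg_of_mul_nonneg_right (this ▸ mul_nonneg h hd.le) (pow_pos hd _)

/-- The interval `[a / c, b / c]`. -/
def seg (a b c : ℤ) : Iv := ⟨a, b, c, c⟩

/-- The ray `[a, ∞)`. -/
def tail (a : ℤ) : Iv := ⟨a, 1, 1, 0⟩

/-- A test of the coefficients on an interval. -/
def ok (chk : α → Bool) (i : Iv) (l : List α) : Bool := (homL i l).all chk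

theorem ok_tail {chk : α → Bool} {a : ℤ} {l : List α} (h : ok chk (tail a) l = true) {e : List ℝ}
    (hc : ∀ b, chk b = true → 0 ≤ Coef.val b e) {t : ℝ} (ht : (a : ℝ) ≤ t) :
    0 ≤ Coef.val l (t :: e) := by
  have h1 := hom_nonneg (tail a) l (x := t - a) (e := e) (by simp [tail])
    (ev_nonneg _ (fun b hb => hc b (List.all_eq_true.1 h b hb)) _ (sub_nonneg.2 ht))
  simpa [tail, val_list] using h1

theorem ok_seg {chk : α → Bool} {a b c : ℤ} {l : List α} (h : ok chk (seg a b c) l = true)
    (hab : a < b) (hc0 : 0 < c) {e : List ℝ}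
    (hc : ∀ y, chk y = true → 0 ≤ Coef.val y e) {t : ℝ} (ht : (a : ℝ) / c ≤ t)
    (ht' : t ≤ (b : ℝ) / c) : 0 ≤ Coef.val l (t :: e) := by
  have hcR : (0 : ℝ) < c := by exact_mod_cast hc0
  have habR : (a : ℝ) < b := by exact_mod_cast hab
  have key : Set.Ico ((a : ℝ) / c) (b / c) ⊆ {t | 0 ≤ ev l t e} := by
    intro u hu
    have h2 : (c : ℝ) * u < b := by
      have := (lt_div_iff₀ hcR).1 hu.2
      linarith
    have h3 : (a : ℝ) ≤ c * u := by
      have := (div_le_iff₀ hcR).1 hu.1
      linarith
    set x := (c * u - a) / (b - c * u) with hxdef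
    have hx : 0 ≤ x := div_nonneg (by linarith) (by linarith)
    have h1 := hom_nonneg (seg a b c) l (x := x) (e := e)
      (by simp only [seg]; positivity)
      (ev_nonneg _ (fun y hy => hc y (List.all_eq_true.1 h y hy)) _ hx)
    have e1 : (((seg a b c).n0 : ℝ) + (seg a b c).n1 * x) /
        (((seg a b c).d0 : ℝ) + (seg a b c).d1 * x) = u := by
      simp only [seg]
      rw [hxdef, div_eq_iff (by positivity)]
      have : (b : ℝ) - c * u ≠ 0 := by linarith
      field_simp
      ring
    rw [e1] at h1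
    exact h1
  have hne : (a : ℝ) / c ≠ b / c := (div_lt_div_of_pos_right habR hcR).ne
  have hcl := closure_minimal key (isClosed_le continuous_const (ev_cont e l))
  rw [closure_Ico hne] at hcl
  exact hcl ⟨ht, ht'⟩

/-- All coefficients are nonnegative, or only the linear one is negative and it is small. -/
def okU : List ℤ → Bool
  | a :: b :: c :: l =>
    decide (0 ≤ a) && decide (0 ≤ c) && l.all (fun y => decide (0 ≤ y)) &&
      (decide (0 ≤ b) || decide (b * b ≤ 4 * a * c))
  | l => l.all fun y => decide (0 ≤ y)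

theorem okU_nonneg {l : List ℤ} (h : okU l = true) {x : ℝ} (hx : 0 ≤ x) (e : List ℝ) :
    0 ≤ ev l x e := by
  have plain : ∀ k : List ℤ, (k.all fun y => decide (0 ≤ y)) = true → 0 ≤ ev k x e := fun k hk =>
    ev_nonneg k (fun y hy => by
      show (0 : ℝ) ≤ (y : ℝ)
      exact_mod_cast of_decide_eq_true (List.all_eq_true.1 hk y hy)) x hx
  match l with
  | [] => exact plain [] h
  | [a] => exact plain [a] h
  | [a, b] => exact plain [a, b] h
  | a :: b :: c :: k =>
    simp only [okU, Bool.and_eq_true, Bool.or_eq_true, decide_eq_true_eq] at h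
    obtain ⟨⟨⟨ha, hc⟩, hk⟩, hb⟩ := h
    have hk' := plain k hk
    have haR : (0 : ℝ) ≤ a := by exact_mod_cast ha
    have hcR : (0 : ℝ) ≤ c := by exact_mod_cast hc
    show 0 ≤ (a : ℝ) + x * ((b : ℝ) + x * ((c : ℝ) + x * ev k x e))
    have h3 := mul_nonneg (mul_nonneg (mul_nonneg hx hx) hx) hk'
    rcases hb with hb | hb
    · have hbR : (0 : ℝ) ≤ b := by exact_mod_cast hb
      linarith [mul_nonneg hx hbR, mul_nonneg (mul_nonneg hx hx) hcR]
    · have hbR : (b : ℝ) * b ≤ 4 * a * c := by exact_mod_cast hb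
      rcases hcR.eq_or_lt with h0 | h0
      · have hb0 : (b : ℝ) = 0 := by
          rw [← h0, mul_zero] at hbR
          exact mul_self_eq_zero.1 (le_antisymm hbR (mul_self_nonneg _))
        rw [hb0, ← h0]
        linarith
      · have h4 : 0 ≤ (c : ℝ) * (a + x * b + x * x * c) := by
          nlinarith [mul_self_nonneg ((c : ℝ) * x + b / 2)]
        have := nonneg_of_mul_nonneg_right h4 h0
        linarith

/-- Plain nonnegativity of one coefficient. -/
def okZ (a : ℤ) : Bool := decide (0 ≤ a)

theorem okZ_nonneg {a : ℤ} (h : okZ a = true) (e : List ℝ) : 0 ≤ Coef.val a e := by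
  show (0 : ℝ) ≤ (a : ℝ)
  exact_mod_cast of_decide_eq_true h

/-- The test on a ray, allowing a small negative linear coefficient. -/
def okTail (a : ℤ) (l : List ℤ) : Bool := okU (homL (tail a) l)

theorem okTail_nonneg {a : ℤ} {l : List ℤ} (h : okTail a l = true) (e : List ℝ) {t : ℝ}
    (ht : (a : ℝ) ≤ t) : 0 ≤ Coef.val l (t :: e) := by
  have h1 := hom_nonneg (tail a) l (x := t - a) (e := e) (by simp [tail])
    (okU_nonneg h (sub_nonneg.2 ht) e)
  simpa [tail, val_list] using h1

/-- The test on `[0, 1]` and on `[1, ∞)`. -/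
def okRay (l : List ℤ) : Bool := ok okZ (seg 0 1 1) l && okTail 1 l

theorem okRay_nonneg {l : List ℤ} (h : okRay l = true) (e : List ℝ) {t : ℝ} (ht : 0 ≤ t) :
    0 ≤ Coef.val l (t :: e) := by
  rw [okRay, Bool.and_eq_true] at h
  rcases le_total t 1 with h1 | h1
  · exact ok_seg h.1 (by norm_num) one_pos (fun y hy => okZ_nonneg hy e) (by simpa using ht)
      (by simpa using h1)
  · exact okTail_nonneg h.2 e (by simpa using h1)

end Vale.Agent.P219.Aff.Nine
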