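import Vale.Agent.P219.Aff.Nine.Data

/-!
# Positivity of the chord polynomial in dimension nine

With `r = S u` and `p = top - width * t` all Bernstein coefficients on the boxes are nonnegative.
-/

namespace Vale.Agent.P219.Aff.Nine

/-- Substitution of the product of the two variables for the outer one; the result has the second
variable outside. -/
def diagL : List (List ℤ) → List (List ℤ)
  | [] => []
  | a :: l => addL (a.map fun c => [c]) ([] :: (diagL l).map (List.cons 0))

theorem ev_single : ∀ (a : List ℤ) (x u : ℝ),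
    ev (a.map fun c => [c]) x [u] = Coef.val a [x]
  | [], x, u => by simp [ev, val_list]
  | c :: a, x, u => by
    simp only [List.map_cons, ev, ev_single a x u, val_list]
    simp [Coef.val]

theorem ev_shift : ∀ (l : List (List ℤ)) (x u : ℝ),
    ev (l.map (List.cons 0)) x [u] = u * ev l x [u]
  | [], x, u => by simp [ev]
  | a :: l, x, u => by
    simp only [List.map_cons, ev, ev_shift l x u, val_list]
    simp [Coef.val]
    ring

theorem ev_diagL : ∀ (l : List (List ℤ)) (x u : ℝ), ev (diagL l) x [u] = ev l (x * u) [x]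
  | [], x, u => by simp [diagL, ev]
  | a :: l, x, u => by
    simp only [diagL, ev_addL, ev_single, ev, ev_shift, ev_diagL l x u, val_list]
    ring

/-- The square of the outer variable times a list. -/
def sqX (a : List (List ℤ)) : List (List ℤ) := [] :: [] :: a

theorem ev_sqX (a : List (List ℤ)) (x u : ℝ) : ev (sqX a) x [u] = x ^ 2 * ev a x [u] := by
  simp [sqX, ev, val_list]
  ring

/-- Substitution of `(A - B t) / 4` for the outer variable, times a power of four; `fA` and `fB`
multiply a coefficient by `A` and by `-B`. -/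
def subT (fA fB : List (List ℤ) → List (List ℤ)) :
    List (List (List ℤ)) → List (List (List ℤ))
  | [] => []
  | a :: l => addL [Coef.smul ((4 : ℤ) ^ l.length) a]
      (addL ((subT fA fB l).map fA) (Coef.zero :: (subT fA fB l).map fB))

theorem ev_map_mul {f : List (List ℤ) → List (List ℤ)} {c x u : ℝ}
    (hf : ∀ a, ev (f a) x [u] = c * ev a x [u]) : ∀ (l : List (List (List ℤ))) (t : ℝ),
    ev (l.map f) t [x, u] = c * ev l t [x, u]
  | [], t => by simp [ev]
  | a :: l, t => by
    simp only [List.map_cons, ev, val_list, hf a, ev_map_mul hf l t]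
    ring

theorem ev_subT {fA fB : List (List ℤ) → List (List ℤ)} {A B x u : ℝ}
    (hA : ∀ a, ev (fA a) x [u] = A * ev a x [u]) (hB : ∀ a, ev (fB a) x [u] = -B * ev a x [u])
    (t : ℝ) : ∀ l : List (List (List ℤ)),
    4 * ev (subT fA fB l) t [x, u] = 4 ^ l.length * ev l ((A - B * t) / 4) [x, u]
  | [] => by simp [subT, ev]
  | a :: l => by
    have ih := ev_subT hA hB t l
    simp only [subT, ev_addL, ev, Coef.val_smul, Coef.val_zero, ev_map_mul hA, ev_map_mul hB,
      List.length_cons, pow_succ]
    push_cast
    linear_combination (A - B * t) * ih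

/-- The coefficient multiplying by `-(2 - x) ^ 2`. -/
def negGap (a : List (List ℤ)) : List (List ℤ) := (mulPow 2 (-1) 2 a).map (Coef.smul (-1))

theorem ev_negGap (a : List (List ℤ)) (x u : ℝ) :
    ev (negGap a) x [u] = -(2 - x) ^ 2 * ev a x [u] := by
  rw [negGap, ev_smulL, ev_mulPow]
  push_cast
  ring

/-- The coefficient multiplying by `-x ^ 2`. -/
def negSq (a : List (List ℤ)) : List (List ℤ) := (sqX a).map (Coef.smul (-1))

theorem ev_negSq (a : List (List ℤ)) (x u : ℝ) :
    ev (negSq a) x [u] = -x ^ 2 * ev a x [u] := by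
  rw [negSq, ev_smulL, ev_sqX]
  push_cast
  ring

/-- The chord polynomial below the sum one. -/
def lowL : List (List (List ℤ)) := subT sqX negSq (chordL.map diagL)

/-- The chord polynomial above the sum one. -/
def highL : List (List (List ℤ)) := subT sqX negGap (chordL.map diagL)

theorem low_ok : ok (ok okRay (seg 0 1 1)) (seg 0 1 1) lowL = true := by decide +kernel

theorem high_ok_one : ok (ok okRay (seg 2 3 2)) (seg 0 1 1) highL = true := by decide +kernel

theorem high_ok_two : ok (ok okRay (seg 3 4 2)) (seg 0 1 1) highL = true := by decide +kernel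

theorem box_nonneg {a b c : ℤ} {l : List (List (List ℤ))}
    (h : ok (ok okRay (seg a b c)) (seg 0 1 1) l = true) (hab : a < b) (hc0 : 0 < c) {t S u : ℝ}
    (ht : 0 ≤ t) (ht1 : t ≤ 1) (hS : (a : ℝ) / c ≤ S) (hS1 : S ≤ (b : ℝ) / c) (hu : 0 ≤ u) :
    0 ≤ ev l t [S, u] :=
  ok_seg h (by norm_num) one_pos
    (fun y hy => ok_seg hy hab hc0 (fun z hz => okRay_nonneg hz [] hu) hS hS1)
    (by simpa using ht) (by simpa using ht1)

theorem chord_box {fB : List (List ℤ) → List (List ℤ)} {B t S u : ℝ}
    (hB : ∀ a, ev (fB a) S [u] = -B * ev a S [u])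
    (h : 0 ≤ ev (subT sqX fB (chordL.map diagL)) t [S, u]) :
    0 ≤ Coef.val chordL [(S ^ 2 - B * t) / 4, S * u, S] := by
  have e := ev_subT (fun a => ev_sqX a S u) hB t (chordL.map diagL)
  have e2 : ∀ (l : List (List (List ℤ))) (p : ℝ),
      ev (l.map diagL) p [S, u] = ev l p [S * u, S] := by
    intro l p
    induction l with
    | nil => simp [ev]
    | cons a l ih => simp only [List.map_cons, ev, val_list, ev_diagL, ih]
  rw [e2] at e
  exact nonneg_of_mul_nonneg_right (e ▸ mul_nonneg (by norm_num : (0 : ℝ) ≤ 4) h)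
    (pow_pos (by norm_num) _)

/-- The chord polynomial is nonnegative for cosines in the unit interval. -/
theorem chordL_nonneg {r c d : ℝ} (hr : 0 ≤ r) (hc : 0 < c) (hc1 : c ≤ 1) (hd : 0 < d)
    (hd1 : d ≤ 1) : 0 ≤ Coef.val chordL [c * d, r, c + d] := by
  set S := c + d with hSdef
  have hS : 0 < S := by linarith
  have hu : 0 ≤ r / S := div_nonneg hr hS.le
  have eu : S * (r / S) = r := by field_simp
  have hq : 4 * (c * d) ≤ S ^ 2 := by nlinarith [sq_nonneg (c - d)]
  rcases le_total S 1 with h | h
  · set t := (S ^ 2 - 4 * (c * d)) / S ^ 2 with ht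
    have h0 : 0 ≤ t := div_nonneg (by linarith) (sq_nonneg S)
    have h1 : t ≤ 1 := (div_le_one (by positivity)).2 (by nlinarith [mul_pos hc hd])
    have := chord_box (B := S ^ 2) (t := t) (fun a => ev_negSq a S (r / S))
      (box_nonneg low_ok (by norm_num) one_pos h0 h1 (by simpa using hS.le) (by simpa using h) hu)
    have ep : (S ^ 2 - S ^ 2 * t) / 4 = c * d := by rw [ht]; field_simp; ring
    rwa [eu, ep] at this
  · have hS2 : S ≤ 2 := by linarith
    have hp : S - 1 ≤ c * d := by
      nlinarith [mul_nonneg (sub_nonneg.2 hc1) (sub_nonneg.2 hd1)]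
    set t := (S ^ 2 - 4 * (c * d)) / (2 - S) ^ 2 with ht
    have h0 : 0 ≤ t := div_nonneg (by linarith) (sq_nonneg _)
    have h1 : t ≤ 1 := by
      rcases hS2.eq_or_lt with h2 | h2
      · rw [ht, h2]; norm_num
      · rw [ht, div_le_one (pow_pos (by linarith) 2)]
        linarith
    have hb : 0 ≤ ev highL t [S, r / S] := by
      rcases le_total S (3 / 2) with h3 | h3
      · exact box_nonneg high_ok_one (by norm_num) two_pos h0 h1 (by norm_num; linarith)
          (by norm_num; linarith) hu
      · exact box_nonneg high_ok_two (by norm_num) two_pos h0 h1 (by norm_num; linarith)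
          (by norm_num; linarith) hu
    have := chord_box (B := (2 - S) ^ 2) (t := t) (fun a => ev_negGap a S (r / S)) hb
    have ep : (S ^ 2 - (2 - S) ^ 2 * t) / 4 = c * d := by
      rcases hS2.eq_or_lt with h2 | h2
      · rw [ht, h2]
        have : c * d = 1 := le_antisymm (mul_le_one₀ hc1 hd.le hd1) (by linarith)
        rw [this]; norm_num
      · have : (2 : ℝ) - S ≠ 0 := by linarith
        rw [ht]; field_simp; ring
    rwa [eu, ep] at this

end Vale.Agent.P219.Aff.Nine
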